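import Vale.Agent.P110.Exist.Spencer.Main

/-!
Rounding of coefficients that are mostly close to `±1`: the cost depends only on
`∑ (1 - |a k|)` (P110, module M2).
-/

namespace Vale.Agent.P110.Spencer

open Finset Real

variable {κ : Type*} [DecidableEq κ] {J : Type*}

theorem scale_le_sqrt_mul {m Q u i : ℕ} (hQ : 1 ≤ Q) (hQm : Q ≤ m) (hum : u ≤ m)
    (hu : u ≤ Q * 2 ^ i) : scale m u ≤ sqrt (2 ^ i) * scale m Q := by
  rcases Nat.eq_zero_or_pos u with rfl | hu1
  · rw [show scale m 0 = 0 by simp [scale]]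
    exact mul_nonneg (sqrt_nonneg _) (scale_nonneg _ _)
  rcases le_or_gt u Q with h | h
  · refine (scale_step hu1 h hQm).1.trans (le_mul_of_one_le_left (scale_nonneg _ _) ?_)
    rw [one_le_sqrt]
    exact one_le_pow₀ one_le_two
  · rw [scale, scale, ← sqrt_mul (by positivity)]
    refine sqrt_le_sqrt ?_
    have hQ' : (0 : ℝ) < Q := by exact_mod_cast hQ
    have hu' : (Q : ℝ) ≤ u := by exact_mod_cast h.le
    have hm' : (u : ℝ) ≤ m := by exact_mod_cast hum
    have hu2 : (u : ℝ) ≤ Q * 2 ^ i := by exact_mod_cast hu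
    have hL := log_ratio_ge hu1 hum
    have hlog : Real.log (400 * m / u) ≤ Real.log (400 * m / Q) :=
      Real.log_le_log (div_pos (by linarith) (by linarith))
        (div_le_div_of_nonneg_left (by positivity) hQ' hu')
    calc (u : ℝ) * Real.log (400 * m / u) ≤ (Q * 2 ^ i) * Real.log (400 * m / Q) :=
          mul_le_mul hu2 hlog (by linarith) (by positivity)
      _ = 2 ^ i * ((Q : ℝ) * Real.log (400 * m / Q)) := by ring

variable [Fintype J] [DecidableEq J]

theorem exists_dyadic_weighted (A : J → κ → ℝ) (j0 : J) (S : Finset κ)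
    (hm : #S ≤ Fintype.card J) (hA : ∀ j, ∀ k ∈ S, |A j k| ≤ 1) (h0 : ∀ k ∈ S, A j0 k = 1)
    (Q : ℕ) (hQ : 1 ≤ Q) (hQn : Q ≤ #S) :
    ∀ (T : ℕ) (p : κ → ℕ), (∀ k ∈ S, p k ≤ 2 ^ T) →
      (∑ k ∈ S, (p k : ℝ)) / 2 ^ T + 20 * scale (Fintype.card J) #S * (1 - 1 / 2 ^ T) ≤ Q →
      ∃ w : κ → Bool, ∀ j, |∑ k ∈ S, A j k * ((p k : ℝ) / 2 ^ T - if w k then 1 else 0)| ≤
        20 * scale (Fintype.card J) Q * (3 * (1 - (3 / 4) ^ T)) := by
  intro T
  induction T with
  | zero =>
    intro p hp _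
    refine ⟨fun k => decide (p k = 1), fun j => ?_⟩
    rw [sum_eq_zero fun k hk => ?_]
    · simp
    · have := hp k hk
      rw [pow_zero] at this
      rcases Nat.le_one_iff_eq_zero_or_eq_one.1 this with h | h <;> simp [h]
  | succ T ih =>
    intro p hp hP
    set U := S.filter fun k => p k % 2 = 1 with hU
    have hUS : U ⊆ S := filter_subset _ _
    have hUm : #U ≤ Fintype.card J := (card_le_card hUS).trans hm
    obtain ⟨ε, hε, hεU, hdisc⟩ := exists_colouring A U hUm fun j k hk => hA j k (hUS hk)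
    let p' : κ → ℕ := fun k => (((p k : ℤ) + ε k) / 2).toNat
    have hp' : ∀ k ∈ S, p' k ≤ 2 ^ T ∧ (2 * (p' k : ℝ) = p k + ε k) := by
      intro k hk
      have hpk := hp k hk
      rw [pow_succ] at hpk
      have key : p' k ≤ 2 ^ T ∧ (2 * (p' k : ℤ) = p k + ε k) := by
        simp only [p']
        by_cases ho : p k % 2 = 1
        · rcases hε k (mem_filter.2 ⟨hk, ho⟩) with h | h <;> rw [h] <;> constructor <;> omega
        · rw [hεU k (fun h => ho (mem_filter.1 h).2)]; constructor <;> omega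
      exact ⟨key.1, by exact_mod_cast key.2⟩
    have hsn : scale (Fintype.card J) #U ≤ scale (Fintype.card J) #S := by
      rcases Nat.eq_zero_or_pos #U with h | h
      · rw [h, show scale (Fintype.card J) 0 = 0 by simp [scale]]
        exact scale_nonneg _ _
      · exact (scale_step h (card_le_card hUS) hm).1
    have hs0 := scale_nonneg (Fintype.card J) #S
    have hpow1 : (1 : ℝ) / 2 ^ (T + 1) ≤ 1 := by
      rw [div_le_one (by positivity)]; exact one_le_pow₀ one_le_two
    have hpow0 : (0 : ℝ) ≤ 1 / 2 ^ (T + 1) := by positivity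
    have hUQ : #U ≤ Q * 2 ^ (T + 1) := by
      have h1 : (#U : ℝ) ≤ ∑ k ∈ S, (p k : ℝ) := by
        rw [← nsmul_one (#U)]
        refine (card_nsmul_le_sum U (fun k => (p k : ℝ)) 1 fun k hk => ?_).trans
          (sum_le_sum_of_subset_of_nonneg hUS fun _ _ _ => by positivity)
        have := (mem_filter.1 hk).2
        exact_mod_cast (show 1 ≤ p k by omega)
      have h2 : (∑ k ∈ S, (p k : ℝ)) / 2 ^ (T + 1) ≤ Q := by nlinarith
      rw [div_le_iff₀ (by positivity)] at h2
      exact_mod_cast h1.trans h2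
    have hsumU : ∀ j, ∑ k ∈ U, A j k * (ε k : ℝ) = ∑ k ∈ S, A j k * (ε k : ℝ) := fun j =>
      sum_subset hUS fun k _ hk => by simp [hεU k hk]
    have hP' : (∑ k ∈ S, (p' k : ℝ)) / 2 ^ T +
        20 * scale (Fintype.card J) #S * (1 - 1 / 2 ^ T) ≤ Q := by
      have h1 : 2 * ∑ k ∈ S, (p' k : ℝ) = ∑ k ∈ S, (p k : ℝ) + ∑ k ∈ U, A j0 k * (ε k : ℝ) := by
        rw [hsumU, mul_sum, ← sum_add_distrib]
        exact sum_congr rfl fun k hk => by rw [(hp' k hk).2, h0 k hk, one_mul]
      have h2 := (abs_le.1 (hdisc j0)).2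
      have h3 : 2 * ∑ k ∈ S, (p' k : ℝ) ≤
          ∑ k ∈ S, (p k : ℝ) + 20 * scale (Fintype.card J) #S := by linarith
      refine le_trans ?_ hP
      rw [pow_succ]
      have : (0 : ℝ) < 2 ^ T := by positivity
      field_simp
      linarith
    obtain ⟨w, hw⟩ := ih p' (fun k hk => (hp' k hk).1) hP'
    refine ⟨w, fun j => ?_⟩
    have hsum : ∑ k ∈ S, A j k * ((p k : ℝ) / 2 ^ (T + 1) - if w k then 1 else 0) =
        ∑ k ∈ S, A j k * ((p' k : ℝ) / 2 ^ T - if w k then 1 else 0) -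
          (∑ k ∈ U, A j k * (ε k : ℝ)) / 2 ^ (T + 1) := by
      rw [hsumU, Finset.sum_div, ← sum_sub_distrib]
      refine sum_congr rfl fun k hk => ?_
      have h2 := (hp' k hk).2
      rw [pow_succ, show (p k : ℝ) = 2 * p' k - ε k by linarith]
      field_simp
      ring
    rw [hsum]
    refine (abs_sub _ _).trans ?_
    have h1 := hw j
    have hQ0 := scale_nonneg (Fintype.card J) Q
    have h2 : |(∑ k ∈ U, A j k * (ε k : ℝ)) / 2 ^ (T + 1)| ≤
        20 * scale (Fintype.card J) Q * ((3 / 4) ^ (T + 1)) := by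
      have hpos : (0 : ℝ) < 2 ^ (T + 1) := by positivity
      rw [abs_div, abs_of_pos hpos, div_le_iff₀ hpos]
      refine (hdisc j).trans ?_
      have h := scale_le_sqrt_mul (i := T + 1) hQ (hQn.trans hm) hUm hUQ
      have h' : sqrt ((2 : ℝ) ^ (T + 1)) ≤ (3 / 4) ^ (T + 1) * 2 ^ (T + 1) := by
        rw [← mul_pow, sqrt_le_iff]
        refine ⟨by positivity, ?_⟩
        rw [← pow_mul, mul_comm (T + 1) 2, pow_mul]
        exact pow_le_pow_left₀ (by norm_num) (by norm_num) _
      nlinarith [mul_le_mul_of_nonneg_right h' hQ0]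
    have h3 : (3 : ℝ) * (1 - (3 / 4) ^ (T + 1)) = 3 * (1 - (3 / 4) ^ T) + (3 / 4) ^ (T + 1) := by
      rw [pow_succ]; ring
    rw [h3, mul_add (20 * scale (Fintype.card J) Q)]
    linarith

/-- Rounding with cost governed by `∑ (1 - |a k|)`. -/
theorem exists_sign_round : ∃ K : ℝ, 0 < K ∧ ∀ ε : ℝ, 0 < ε → ε ≤ 1 → ∀ N : ℕ,
    K / ε ^ 2 ≤ N → ∀ a : ℕ → ℝ, (∀ k < N, |a k| ≤ 1) →
    ∑ k ∈ range N, (1 - |a k|) ≤ ε * N →
    ∃ x : ℕ → ℝ, (∀ k, x k = 1 ∨ x k = -1) ∧ ∀ θ : ℝ,
      ‖evalP (fun k => x k - a k) N θ‖ ≤ K * sqrt (ε * N * Real.log (K / ε)) := by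
  refine ⟨64800, by norm_num, fun ε hε hε1 N hN a ha hsum => ?_⟩
  rw [div_le_iff₀ (by positivity)] at hN
  have hN0 : (0 : ℝ) < N := by
    rcases Nat.eq_zero_or_pos N with h | h
    · rw [h] at hN; norm_num at hN
    · exact_mod_cast h
  have hNn : 1 ≤ N := by exact_mod_cast hN0
  have hεN : 1 ≤ ε * N := by nlinarith
  have hsqrt : 254 * sqrt N ≤ ε * N := by
    have h1 : (254 * sqrt N) ^ 2 ≤ (ε * N) ^ 2 := by
      rw [mul_pow, sq_sqrt hN0.le]; nlinarith
    exact (pow_le_pow_iff_left₀ (by positivity) (by positivity) two_ne_zero).1 h1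
  have hs1 : 1 ≤ sqrt (N : ℝ) := by rw [one_le_sqrt]; exact_mod_cast hNn
  let s : ℕ → ℝ := fun k => if 0 ≤ a k then 1 else -1
  let g : Fin (40 * N) → ℝ := fun i => 2 * Real.pi * (i : ℕ) / (40 * N : ℕ)
  let A : (Fin (40 * N) × Bool) ⊕ Unit → ℕ → ℝ := fun j k => match j with
    | Sum.inl j => (if j.2 then Real.cos ((k : ℝ) * g j.1) else Real.sin ((k : ℝ) * g j.1)) * s k
    | Sum.inr _ => 1
  have hJ : Fintype.card ((Fin (40 * N) × Bool) ⊕ Unit) = 80 * N + 1 := by
    rw [Fintype.card_sum, Fintype.card_prod, Fintype.card_fin, Fintype.card_bool,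
      Fintype.card_unit]
    ring
  have hA : ∀ j, ∀ k ∈ range N, |A j k| ≤ 1 := by
    intro j k _
    rcases j with ⟨i, b⟩ | u
    · have : |s k| = 1 := by simp only [s]; split <;> simp
      simp only [A, abs_mul, this, mul_one]
      split <;> [exact Real.abs_cos_le_one _; exact Real.abs_sin_le_one _]
    · simp [A]
  have hlogN : Real.log (400 * ((80 * N + 1 : ℕ) : ℝ) / N) ≤ 16 := by
    rw [Real.log_le_iff_le_exp (by positivity)]
    have e : (2 : ℝ) ^ 16 ≤ exp 16 := by
      rw [show (16 : ℝ) = ((16 : ℕ) : ℝ) * 1 by norm_num, exp_nat_mul]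
      exact pow_le_pow_left₀ (by norm_num) (by linarith [add_one_le_exp (1 : ℝ)]) 16
    refine le_trans ?_ e
    rw [div_le_iff₀ hN0]
    push_cast
    have : (1 : ℝ) ≤ N := by exact_mod_cast hNn
    nlinarith
  have hsN : scale (80 * N + 1) N ≤ 4 * sqrt N := by
    rw [scale, show (4 : ℝ) * sqrt N = sqrt (16 * N) by
      rw [sqrt_mul (by norm_num), show (16 : ℝ) = 4 ^ 2 by norm_num, sqrt_sq (by norm_num)]]
    exact sqrt_le_sqrt (by nlinarith)
  set P := ε * N / 2 + 20 * scale (80 * N + 1) N with hP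
  set Q := ⌈P⌉₊ with hQ
  have hP0 : 0 < P := by have := scale_nonneg (80 * N + 1) N; positivity
  have hQ1 : 1 ≤ Q := Nat.ceil_pos.2 hP0
  have hQhi : (Q : ℝ) ≤ ε * N := by
    have := Nat.ceil_lt_add_one hP0.le
    rw [← hQ] at this
    rw [hP] at this
    linarith
  have hQlo : ε * N / 2 ≤ (Q : ℝ) :=
    le_trans (le_add_of_nonneg_right (mul_nonneg (by norm_num) (scale_nonneg _ _))) (Nat.le_ceil P)
  have hQN : Q ≤ N := by
    have : (Q : ℝ) ≤ N := hQhi.trans (mul_le_of_le_one_left hN0.le hε1)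
    exact_mod_cast this
  let u : ℕ → ℝ := fun k => (1 - |a k|) / 2
  let p : ℕ → ℕ := fun k => ⌊u k * 2 ^ N⌋₊
  have h2N : (0 : ℝ) < 2 ^ N := by positivity
  have hu : ∀ k ∈ range N, 0 ≤ u k ∧ u k ≤ 1 := by
    intro k hk
    have := ha k (mem_range.1 hk)
    simp only [u]
    constructor <;> linarith [abs_nonneg (a k)]
  have hpu : ∀ k ∈ range N, (p k : ℝ) / 2 ^ N ≤ u k ∧ u k - (p k : ℝ) / 2 ^ N ≤ 1 / 2 ^ N := by
    intro k hk
    constructor
    · rw [div_le_iff₀ h2N]
      exact Nat.floor_le (mul_nonneg (hu k hk).1 h2N.le)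
    · rw [sub_le_iff_le_add, ← add_div, le_div_iff₀ h2N]
      linarith [Nat.lt_floor_add_one (u k * 2 ^ N)]
  obtain ⟨w, hw⟩ := exists_dyadic_weighted A (Sum.inr ()) (range N)
    (by rw [hJ, card_range]; omega) hA (fun k _ => rfl) Q hQ1 (by rw [card_range]; exact hQN) N p
    (fun k hk => by
      refine Nat.floor_le_of_le ?_
      push_cast
      exact mul_le_of_le_one_left h2N.le (hu k hk).2)
    (by
      rw [hJ, card_range]
      refine le_trans (add_le_add ?_ ?_) (Nat.le_ceil P)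
      · rw [Finset.sum_div]
        refine (sum_le_sum fun k hk => (hpu k hk).1).trans ?_
        simp only [u, ← Finset.sum_div]
        exact div_le_div_of_nonneg_right hsum two_pos.le
      · refine mul_le_of_le_one_right (mul_nonneg (by norm_num) (scale_nonneg _ _)) ?_
        exact sub_le_self _ (by positivity))
  rw [hJ] at hw
  set R := sqrt (ε * N * Real.log (64800 / ε)) with hR
  have hsQ : scale (80 * N + 1) Q ≤ R := by
    refine sqrt_le_sqrt ?_
    have hQ0 : (0 : ℝ) < Q := by exact_mod_cast hQ1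
    refine mul_le_mul hQhi (Real.log_le_log (by positivity) ?_)
      (le_trans (by norm_num) (log_ratio_ge hQ1 (by omega))) (by positivity)
    rw [div_le_div_iff₀ hQ0 hε]
    push_cast
    have : (1 : ℝ) ≤ N := by exact_mod_cast hNn
    nlinarith
  have hR1 : 1 ≤ R := by
    rw [hR, one_le_sqrt]
    have : 1 ≤ Real.log (64800 / ε) := by
      rw [le_log_iff_exp_le (by positivity), le_div_iff₀ hε]
      nlinarith [exp_one_lt_three]
    nlinarith
  refine ⟨fun k => s k * (if w k then -1 else 1), fun k => ?_, fun θ => ?_⟩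
  · simp only [s]; split <;> split <;> simp
  have hgrid : ∀ j : Fin (40 * N) × Bool, |∑ k ∈ range N,
      (if j.2 then Real.cos ((k : ℝ) * g j.1) else Real.sin ((k : ℝ) * g j.1)) *
        (s k * (if w k then -1 else 1) - a k)| ≤ 122 * R := by
    intro j
    have hterm : ∀ k ∈ range N, (if j.2 then Real.cos ((k : ℝ) * g j.1)
          else Real.sin ((k : ℝ) * g j.1)) * (s k * (if w k then -1 else 1) - a k) =
        2 * (A (Sum.inl j) k * ((p k : ℝ) / 2 ^ N - if w k then 1 else 0)) +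
          2 * (A (Sum.inl j) k * (u k - (p k : ℝ) / 2 ^ N)) := by
      intro k _
      have habs : a k = s k * |a k| := by
        simp only [s]; split <;> rename_i h
        · rw [abs_of_nonneg h, one_mul]
        · rw [abs_of_neg (not_le.1 h)]; ring
      simp only [A, u]
      generalize (if j.2 then Real.cos ((k : ℝ) * g j.1) else Real.sin ((k : ℝ) * g j.1)) = c
      cases w k <;> simp <;> linear_combination (-c) * habs
    rw [sum_congr rfl hterm, sum_add_distrib, ← mul_sum, ← mul_sum]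
    refine (abs_add_le _ _).trans ?_
    rw [abs_mul, abs_mul, abs_two]
    have h1 := hw (Sum.inl j)
    have h2 : |∑ k ∈ range N, A (Sum.inl j) k * (u k - (p k : ℝ) / 2 ^ N)| ≤ 1 := by
      refine (abs_sum_le_sum_abs _ _).trans
        ((sum_le_card_nsmul _ _ (1 / 2 ^ N : ℝ) fun k hk => ?_).trans ?_)
      · rw [abs_mul, abs_of_nonneg (sub_nonneg.2 (hpu k hk).1)]
        exact (mul_le_of_le_one_left (sub_nonneg.2 (hpu k hk).1) (hA (Sum.inl j) k hk)).trans (hpu k hk).2
      · rw [card_range, nsmul_eq_mul, mul_one_div, div_le_one h2N]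
        exact_mod_cast Nat.lt_two_pow_self.le
    have h3 : 20 * scale (80 * N + 1) Q * (3 * (1 - (3 / 4) ^ N)) ≤ 60 * R := by
      have : (0 : ℝ) ≤ (3 / 4) ^ N := by positivity
      nlinarith [scale_nonneg (80 * N + 1) Q]
    linarith
  rw [evalP_eq_poly]
  refine (norm_poly_le_of_grid (by omega) (M := 244 * R) (fun i => ?_) θ).trans ?_
  · have hp : poly (fun k => ((s k * (if w k then -1 else 1) - a k : ℝ) : ℂ)) N
        (Complex.exp ((g i : ℂ) * Complex.I)) =
        ((∑ k ∈ range N, Real.cos ((k : ℝ) * g i) * (s k * (if w k then -1 else 1) - a k) : ℝ) : ℂ) +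
        ((∑ k ∈ range N, Real.sin ((k : ℝ) * g i) * (s k * (if w k then -1 else 1) - a k) : ℝ) : ℂ) *
          Complex.I := by
      rw [poly]
      push_cast
      rw [sum_mul, ← sum_add_distrib]
      refine sum_congr rfl fun k _ => ?_
      rw [← Complex.exp_nat_mul, ← mul_assoc, Complex.exp_mul_I]
      ring
    rw [show (2 * Real.pi * (i : ℕ) / (40 * N : ℕ) : ℝ) = g i from rfl, hp]
    refine (norm_add_le _ _).trans ?_
    rw [norm_mul, Complex.norm_real, Complex.norm_real, Complex.norm_I, mul_one,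
      Real.norm_eq_abs, Real.norm_eq_abs]
    have h1 := hgrid (i, true)
    have h2 := hgrid (i, false)
    simp only [if_true, Bool.false_eq_true, if_false] at h1 h2
    linarith
  · linarith

end Vale.Agent.P110.Spencer
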