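import Mathlib.Algebra.BigOperators.Field
import Mathlib.Algebra.BigOperators.Ring.Finset
import Mathlib.Algebra.Order.BigOperators.Ring.Finset
import Mathlib.Algebra.Order.Round
import Mathlib.Analysis.Complex.ExponentialBounds
import Mathlib.Analysis.SpecialFunctions.Log.Basic
import Mathlib.Analysis.SpecialFunctions.Trigonometric.Series
import Mathlib.Analysis.SpecialFunctions.Sqrt

/-!
Partial colourings with small discrepancy (Spencer's theorem, counting form of the entropy method).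
-/

namespace Vale.Agent.P110.Spencer

open Finset Real

variable {κ : Type*} [DecidableEq κ] {J : Type*}

/-- The sign at `k` of the colouring whose plus class is `x`. -/
def sgn (x : Finset κ) (k : κ) : ℝ := if k ∈ x then 1 else -1

/-- The value of a linear form on a colouring of `S`. -/
def form (S : Finset κ) (a : κ → ℝ) (x : Finset κ) : ℝ := ∑ k ∈ S, a k * sgn x k

theorem sum_exp_form (S : Finset κ) (a : κ → ℝ) (r : ℝ) :
    ∑ x ∈ S.powerset, exp (r * form S a x) = ∏ k ∈ S, (exp (r * a k) + exp (-(r * a k))) := by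
  rw [Finset.prod_add]
  refine sum_congr rfl fun x hx => ?_
  have hxS := mem_powerset.1 hx
  rw [← exp_sum, ← exp_sum, ← exp_add, form, Finset.mul_sum, ← Finset.sum_sdiff hxS]
  congr 1
  rw [add_comm]
  congr 1
  · exact sum_congr rfl fun k hk => by simp [sgn, hk]
  · exact sum_congr rfl fun k hk => by simp [sgn, (mem_sdiff.1 hk).2]

theorem sum_exp_form_le (S : Finset κ) (a : κ → ℝ) (ha : ∀ k ∈ S, |a k| ≤ 1) (r : ℝ) :
    ∑ x ∈ S.powerset, exp (r * form S a x) ≤ 2 ^ #S * exp ((#S : ℝ) * r ^ 2 / 2) := by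
  rw [sum_exp_form, mul_div_assoc, exp_nat_mul, ← mul_pow, ← prod_const]
  refine Finset.prod_le_prod (fun k _ => by positivity) fun k hk => ?_
  have h : exp (r * a k) + exp (-(r * a k)) = 2 * cosh (r * a k) := by rw [cosh_eq]; ring
  rw [h]
  refine mul_le_mul_of_nonneg_left ((cosh_le_exp_half_sq _).trans (exp_le_exp.2 ?_)) two_pos.le
  have := ha k hk
  have h2 : (a k) ^ 2 ≤ 1 := by nlinarith [sq_abs (a k), abs_nonneg (a k)]
  nlinarith [sq_nonneg r]

theorem round_sq_le (X μ : ℝ) (hμ : 4 ≤ μ) :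
    ((round X : ℤ) : ℝ) ^ 2 ≤ exp (-(μ / 2)) * (exp (μ * X) + exp (-(μ * X))) := by
  have hpos : 0 ≤ exp (-(μ / 2)) * (exp (μ * X) + exp (-(μ * X))) := by positivity
  by_cases h0 : round X = 0
  · simpa [h0] using hpos
  have h1 := abs_sub_round X
  have h2 : (1 : ℝ) ≤ |((round X : ℤ) : ℝ)| := by
    rw [← Int.cast_abs]; exact_mod_cast Int.one_le_abs h0
  have h3 : |((round X : ℤ) : ℝ)| ≤ |X| + 1 / 2 := by
    have := abs_sub_abs_le_abs_sub ((round X : ℤ) : ℝ) X
    rw [abs_sub_comm ((round X : ℤ) : ℝ) X] at this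
    linarith
  have h4 : 2 * |X| ≤ exp (2 * |X| - 1) := by linarith [add_one_le_exp (2 * |X| - 1)]
  have h5 : ((round X : ℤ) : ℝ) ^ 2 ≤ exp (4 * |X| - 2) := by
    rw [show 4 * |X| - 2 = (2 * |X| - 1) + (2 * |X| - 1) by ring, exp_add, ← sq, ← sq_abs]
    exact pow_le_pow_left₀ (abs_nonneg _) (by linarith) 2
  refine h5.trans ((exp_le_exp.2 (show 4 * |X| - 2 ≤ -(μ / 2) + μ * |X| by nlinarith)).trans ?_)
  rw [exp_add]
  refine mul_le_mul_of_nonneg_left ?_ (exp_pos _).le
  rcases abs_cases X with ⟨h, -⟩ | ⟨h, -⟩ <;> rw [h]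
  · linarith [exp_pos (-(μ * X))]
  · rw [mul_neg]; linarith [exp_pos (μ * X)]

theorem sum_pow_natAbs_sq_le {q : ℝ} (hq : 0 ≤ q) (hq' : q ≤ 1 / 4) (Z : Finset ℤ) :
    ∑ z ∈ Z, q ^ (z.natAbs ^ 2) ≤ 1 + 3 * q := by
  have hq1 : q ≤ 1 := by linarith
  have hgeo : ∀ F : Finset ℕ, ∑ i ∈ F, q ^ i ≤ (1 - q)⁻¹ := fun F => by
    rw [← tsum_geometric_of_lt_one hq (by linarith)]
    exact (summable_geometric_of_lt_one hq (by linarith)).sum_le_tsum F fun i _ => pow_nonneg hq i
  have hterm : ∀ z : ℤ, q ^ (z.natAbs ^ 2) ≤ q ^ z.natAbs := fun z =>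
    pow_le_pow_of_le_one hq hq1 (Nat.le_self_pow two_ne_zero _)
  have hpos : ∑ z ∈ Z.filter (fun z => 0 ≤ z), q ^ (z.natAbs ^ 2) ≤ (1 - q)⁻¹ := by
    refine (sum_le_sum fun z _ => hterm z).trans ?_
    rw [← sum_image (f := fun i => q ^ i) (g := Int.natAbs)]
    · exact hgeo _
    · intro x hx y hy h; simp only [coe_filter, Set.mem_ofPred_eq] at hx hy; omega
  have hneg : ∑ z ∈ Z.filter (fun z => ¬ 0 ≤ z), q ^ (z.natAbs ^ 2) ≤ q * (1 - q)⁻¹ := by
    calc ∑ z ∈ Z.filter (fun z => ¬ 0 ≤ z), q ^ (z.natAbs ^ 2)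
        ≤ ∑ z ∈ Z.filter (fun z => ¬ 0 ≤ z), q * q ^ (z.natAbs - 1) := by
          refine sum_le_sum fun z hz => (hterm z).trans (le_of_eq ?_)
          rw [← pow_succ']; congr 1
          have := (mem_filter.1 hz).2; omega
      _ ≤ q * (1 - q)⁻¹ := by
          rw [← mul_sum, ← sum_image (f := fun i => q ^ i) (g := fun z : ℤ => z.natAbs - 1)]
          · exact mul_le_mul_of_nonneg_left (hgeo _) hq
          · intro x hx y hy h; simp only [coe_filter, Set.mem_ofPred_eq] at hx hy h; omega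
  rw [← sum_filter_add_sum_filter_not Z (fun z => 0 ≤ z)]
  refine (add_le_add hpos hneg).trans ?_
  rw [← one_add_mul, ← div_eq_mul_inv, div_le_iff₀ (by linarith)]
  nlinarith

theorem sum_pow_symmDiff (S x : Finset κ) (hx : x ⊆ S) (r : ℝ) :
    ∑ y ∈ S.powerset, r ^ #(symmDiff x y) = (r + 1) ^ #S := by
  rw [← Finset.sum_pow_mul_eq_add_pow r 1 S]
  refine sum_nbij' (fun y => symmDiff x y) (fun y => symmDiff x y) ?_ ?_ ?_ ?_ ?_
  · intro y hy
    rw [mem_powerset] at hy ⊢
    exact symmDiff_le_sup.trans (union_subset hx hy)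
  · intro y hy
    rw [mem_powerset] at hy ⊢
    exact symmDiff_le_sup.trans (union_subset hx hy)
  · intro y _; simp
  · intro y _; simp
  · intro y _; simp

/-- The discrepancy scale `√(n log (400 m / n))`. -/
noncomputable def scale (m n : ℕ) : ℝ := √((n : ℝ) * Real.log (400 * m / n))

theorem exists_partial [Fintype J] [DecidableEq J] (A : J → κ → ℝ) (S : Finset κ) (hS : S.Nonempty)
    (hm : #S ≤ Fintype.card J) (hA : ∀ j, ∀ k ∈ S, |A j k| ≤ 1) :
    ∃ ε : κ → ℤ, (∀ k, ε k = -1 ∨ ε k = 0 ∨ ε k = 1) ∧ (∀ k, k ∉ S → ε k = 0) ∧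
      4 * #(S.filter fun k => ε k = 0) ≤ 3 * #S ∧
      ∀ j, |∑ k ∈ S, A j k * ε k| ≤ 2 * scale (Fintype.card J) #S := by
  set n := #S with hn
  set m := Fintype.card J with hmdef
  have hn1 : 1 ≤ n := hS.card_pos
  have hnR : (1 : ℝ) ≤ n := by exact_mod_cast hn1
  have hmR : (n : ℝ) ≤ m := by exact_mod_cast hm
  set q : ℝ := (n : ℝ) / (400 * m) with hq
  have hm0 : (0 : ℝ) < m := by linarith
  have hq0 : 0 < q := by positivity
  have hq1 : q ≤ 1 / 400 := by rw [hq, div_le_iff₀ (by positivity)]; nlinarith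
  set t : ℝ := Real.log (400 * m / n) with ht
  have hexp : exp (-t) = q := by
    rw [ht, exp_neg, exp_log (by positivity), inv_div, hq]
  have ht4 : 4 ≤ 8 * t := by
    have h1 : t + 1 ≤ exp t := add_one_le_exp t
    have : (400 : ℝ) ≤ exp t := by
      rw [ht, exp_log (by positivity), le_div_iff₀ (by linarith)]; nlinarith
    by_contra h
    have : exp t ≤ exp 1 := exp_le_exp.2 (by linarith)
    linarith [exp_one_lt_d9]
  set Δ : ℝ := 2 * scale m n with hΔ
  have hΔ0 : 0 < Δ := by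
    rw [hΔ, scale, ← ht]
    have : 0 < (n : ℝ) * t := by nlinarith
    positivity
  have hΔ2 : Δ ^ 2 = 4 * (n * t) := by
    rw [hΔ, scale, ← ht, mul_pow, sq_sqrt (by nlinarith)]; norm_num
  let b : J → Finset κ → ℤ := fun j x => round (form S (A j) x / (2 * Δ))
  let W : Finset κ → ℕ := fun x => ∑ j, (b j x).natAbs ^ 2
  have hEb : ∀ j, ∑ x ∈ S.powerset, (((b j x).natAbs ^ 2 : ℕ) : ℝ) ≤ 2 ^ n * (2 * q ^ 2) := by
    intro j
    have hb : ∀ x, (((b j x).natAbs ^ 2 : ℕ) : ℝ) ≤ exp (-(8 * t / 2)) *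
        (exp (8 * t / (2 * Δ) * form S (A j) x) + exp (-(8 * t / (2 * Δ)) * form S (A j) x)) := by
      intro x
      have := round_sq_le (form S (A j) x / (2 * Δ)) (8 * t) ht4
      rw [show 8 * t * (form S (A j) x / (2 * Δ)) = 8 * t / (2 * Δ) * form S (A j) x by ring] at this
      rw [neg_mul]
      push_cast [Nat.cast_natAbs, Int.cast_abs, sq_abs]
      exact this
    refine (sum_le_sum fun x _ => hb x).trans ?_
    rw [← mul_sum, sum_add_distrib]
    refine (mul_le_mul_of_nonneg_left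
      (add_le_add (sum_exp_form_le S _ (hA j) _) (sum_exp_form_le S _ (hA j) _))
      (exp_pos _).le).trans (le_of_eq ?_)
    have he : (n : ℝ) * (8 * t / (2 * Δ)) ^ 2 / 2 = 2 * t := by
      rw [div_pow, mul_pow 2 Δ, hΔ2]
      have : t ≠ 0 := by linarith
      field_simp
      ring
    rw [neg_sq, ← hn, he, ← hexp, ← two_mul]
    have : exp (-(8 * t / 2)) * exp (2 * t) = exp (-t) ^ 2 := by
      rw [← exp_add, sq, ← exp_add]; congr 1; ring
    linear_combination (2 * (2 : ℝ) ^ n) * this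
  set K : ℝ := 20 * m * q ^ 2 with hK
  have hK0 : 0 < K := by positivity
  set G := S.powerset.filter (fun x => (W x : ℝ) ≤ K) with hG
  have hGcard : (9 / 10 : ℝ) * 2 ^ n ≤ #G := by
    have h1 : ∑ x ∈ S.powerset, (W x : ℝ) ≤ 2 ^ n * (2 * m * q ^ 2) := by
      simp only [W, Nat.cast_sum]
      rw [sum_comm]
      refine (sum_le_card_nsmul _ _ _ fun j _ => hEb j).trans (le_of_eq ?_)
      rw [card_univ, nsmul_eq_mul]; ring
    have h2 : K * #(S.powerset.filter fun x => ¬ (W x : ℝ) ≤ K) ≤ ∑ x ∈ S.powerset, (W x : ℝ) := by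
      refine le_trans ?_ (sum_le_sum_of_subset_of_nonneg (filter_subset (fun x => ¬ (W x : ℝ) ≤ K) _)
        fun x _ _ => by positivity)
      rw [mul_comm, ← nsmul_eq_mul]
      exact card_nsmul_le_sum _ _ _ fun x hx => (not_le.1 (mem_filter.1 hx).2).le
    have h3 : (#G : ℝ) + #(S.powerset.filter fun x => ¬ (W x : ℝ) ≤ K) = 2 ^ n := by
      rw [hG]
      exact_mod_cast (card_filter_add_card_filter_not (s := S.powerset) (fun x => (W x : ℝ) ≤ K)).trans (card_powerset S)
    have h4 := h2.trans h1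
    rw [hK] at h4
    have hm2 : 0 < (m : ℝ) * q ^ 2 := by positivity
    nlinarith
  have hcls : (#(G.image fun x j => b j x) : ℝ) ≤ exp (0.01 * n) := by
    set I := G.image (fun x (j : J) => b j x) with hI
    have hw : ∀ v ∈ I, exp (-(t * K)) ≤ ∏ j : J, q ^ ((v j).natAbs ^ 2) := by
      intro v hv
      obtain ⟨x, hx, rfl⟩ := mem_image.1 hv
      rw [prod_pow_eq_pow_sum, ← hexp, ← exp_nat_mul]
      refine exp_le_exp.2 ?_
      have : (W x : ℝ) ≤ K := (mem_filter.1 hx).2
      simp only [W] at this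
      nlinarith
    have hsub : I ⊆ Fintype.piFinset (fun j => I.image fun v => v j) := fun v hv =>
      Fintype.mem_piFinset.2 fun j => mem_image_of_mem (fun v => v j) hv
    have h1 : (#I : ℝ) * exp (-(t * K)) ≤ exp (3 * m * q) := by
      rw [← nsmul_eq_mul]
      refine (card_nsmul_le_sum _ _ _ hw).trans ?_
      refine (sum_le_sum_of_subset_of_nonneg hsub fun _ _ _ => by positivity).trans ?_
      rw [← prod_univ_sum (fun j => I.image fun v => v j) (fun _ z => q ^ (z.natAbs ^ 2))]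
      refine (Finset.prod_le_prod (fun j _ => sum_nonneg fun _ _ => by positivity) fun j _ =>
        sum_pow_natAbs_sq_le hq0.le (by linarith) _).trans ?_
      rw [prod_const, card_univ, ← hmdef, show (3 : ℝ) * m * q = m * (3 * q) by ring, exp_nat_mul]
      exact pow_le_pow_left₀ (by positivity) (by linarith [add_one_le_exp (3 * q)]) m
    rw [exp_neg, ← div_eq_mul_inv, div_le_iff₀ (exp_pos _), ← exp_add] at h1
    refine h1.trans (exp_le_exp.2 ?_)
    have h2 : 3 * (m : ℝ) * q = 3 * n / 400 := by rw [hq]; field_simp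
    have h3 : t * K = (n : ℝ) * (t * q) / 20 := by rw [hK, hq]; field_simp; ring
    have h4 : t * q ≤ 1 / 20 := by
      have e1 : t / 2 ≤ exp (t / 2) / 2 := by
        have h := add_one_le_exp (t / 2 - 1)
        have h' : exp (t / 2 - 1) ≤ exp (t / 2) / 2 := by
          rw [exp_sub, div_le_div_iff_of_pos_left (exp_pos _) (exp_pos _) two_pos]
          linarith [add_one_le_exp (1 : ℝ)]
        linarith
      have e2 : exp (t / 2) * q = exp (-(t / 2)) := by rw [← hexp, ← exp_add]; congr 1; ring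
      have e3 : exp (-(t / 2)) ≤ 1 / 20 := by
        have : exp (-(t / 2)) ^ 2 ≤ (1 / 20) ^ 2 := by
          rw [sq, ← exp_add, show -(t / 2) + -(t / 2) = -t by ring, hexp]; linarith
        exact (pow_le_pow_iff_left₀ (exp_pos _).le (by norm_num) two_ne_zero).1 this
      nlinarith
    rw [h2, h3]
    nlinarith
  -- a large class of equal rounded values contains two distant colourings
  obtain ⟨x, hxG, x', hx'G, hbx, hd⟩ : ∃ x ∈ G, ∃ x' ∈ G,
      (∀ j, b j x = b j x') ∧ n ≤ 4 * #(symmDiff x x') := by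
    by_contra hcon
    push Not at hcon
    have hball : ∀ x ∈ G, (#(G.filter fun y => (fun j => b j y) = fun j => b j x) : ℝ) ≤
        ((1 + 0.76 ^ 4) / 0.76) ^ n := by
      intro x hx
      rw [div_pow, le_div_iff₀ (by positivity), ← nsmul_eq_mul]
      refine (card_nsmul_le_sum _ (fun y => ((0.76 : ℝ) ^ 4) ^ #(symmDiff x y)) _ ?_).trans ?_
      · intro y hy
        rw [mem_filter] at hy
        rw [← pow_mul]
        exact pow_le_pow_of_le_one (by norm_num) (by norm_num)
          (hcon x hx y hy.1 fun j => (congrFun hy.2 j).symm).le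
      · refine le_trans (sum_le_sum_of_subset_of_nonneg (t := S.powerset) ?_ fun _ _ _ => by positivity) ?_
        · exact (filter_subset _ _).trans (filter_subset _ _)
        rw [sum_pow_symmDiff S x (mem_powerset.1 (mem_filter.1 hx).1), add_comm, ← hn]
    have htot : (#G : ℝ) ≤ exp (0.01 * n) * ((1 + 0.76 ^ 4) / 0.76) ^ n := by
      rw [card_eq_sum_card_fiberwise (f := fun y j => b j y) (t := G.image fun x j => b j x)
        fun y hy => mem_coe.2 (mem_image_of_mem _ hy), Nat.cast_sum]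
      refine (sum_le_card_nsmul _ _ (((1 + 0.76 ^ 4) / 0.76 : ℝ) ^ n) fun v hv => ?_).trans ?_
      · obtain ⟨x, hx, rfl⟩ := mem_image.1 hv
        exact hball x hx
      rw [nsmul_eq_mul]
      exact mul_le_mul_of_nonneg_right hcls (by positivity)
    have he : exp (0.01 : ℝ) ≤ 1 / 0.99 := by
      have := exp_bound_div_one_sub_of_interval (x := (0.01 : ℝ)) (by norm_num) (by norm_num)
      norm_num at this ⊢; exact this
    have h1 := hGcard.trans htot
    rw [mul_comm (0.01 : ℝ), exp_nat_mul, ← mul_pow] at h1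
    have h2 : (exp (0.01 : ℝ) * ((1 + 0.76 ^ 4) / 0.76)) ^ n ≤ (1.78 : ℝ) ^ n :=
      pow_le_pow_left₀ (by positivity)
        ((mul_le_mul_of_nonneg_right he (by positivity)).trans (by norm_num)) n
    have h3 : (1.78 : ℝ) ^ n ≤ 0.89 * 2 ^ n := by
      obtain ⟨i, hi⟩ := Nat.exists_eq_add_of_le hn1
      rw [hi, pow_add, pow_add]
      have : (1.78 : ℝ) ^ i ≤ 2 ^ i := pow_le_pow_left₀ (by norm_num) (by norm_num) i
      nlinarith
    have : (0 : ℝ) < 2 ^ n := by positivity
    linarith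
  have hxS : x ⊆ S := mem_powerset.1 (mem_filter.1 hxG).1
  have hx'S : x' ⊆ S := mem_powerset.1 (mem_filter.1 hx'G).1
  refine ⟨fun k => (if k ∈ x' then 1 else 0) - (if k ∈ x then 1 else 0), fun k => ?_, fun k hk => ?_,
    ?_, fun j => ?_⟩
  · by_cases h1 : k ∈ x' <;> by_cases h2 : k ∈ x <;> simp [h1, h2]
  · dsimp only
    rw [if_neg fun h => hk (hx'S h), if_neg fun h => hk (hxS h), sub_self]
  · have hfilter : (S.filter fun k =>
        ((if k ∈ x' then 1 else 0) - (if k ∈ x then 1 else 0) : ℤ) = 0) = S \ symmDiff x x' := by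
      ext k
      by_cases h1 : k ∈ x' <;> by_cases h2 : k ∈ x <;> simp [h1, h2, mem_symmDiff]
    rw [hfilter, card_sdiff_of_subset (symmDiff_le_sup.trans (union_subset hxS hx'S))]
    omega
  · have heq : ∑ k ∈ S, A j k *
        (((if k ∈ x' then 1 else 0) - (if k ∈ x then 1 else 0) : ℤ) : ℝ) =
        (form S (A j) x' - form S (A j) x) / 2 := by
      simp only [form, ← sum_sub_distrib, Finset.sum_div]
      refine sum_congr rfl fun k _ => ?_
      by_cases h1 : k ∈ x' <;> by_cases h2 : k ∈ x <;> simp [sgn, h1, h2] <;> ring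
    rw [heq]
    have hb := hbx j
    simp only [b] at hb
    have h1 := abs_le.1 (abs_sub_round (form S (A j) x / (2 * Δ)))
    have h2 := abs_le.1 (abs_sub_round (form S (A j) x' / (2 * Δ)))
    rw [hb] at h1
    have hu : form S (A j) x' / (2 * Δ) - form S (A j) x / (2 * Δ) =
        (form S (A j) x' - form S (A j) x) / 2 / Δ := by ring
    have h3 : |(form S (A j) x' - form S (A j) x) / 2 / Δ| ≤ 1 := by
      rw [← hu]; exact abs_le.2 ⟨by linarith, by linarith⟩
    rwa [abs_div, abs_of_pos hΔ0, div_le_one hΔ0] at h3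

end Vale.Agent.P110.Spencer
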