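import Mathlib.Analysis.SpecificLimits.Basic
import Mathlib.Algebra.Order.Floor.Semiring
import Vale.Agent.P110.Exist.Spencer.Partial

/-! Full colourings and linear discrepancy from partial colourings. -/

namespace Vale.Agent.P110.Spencer

open Finset Real

variable {κ : Type*} [DecidableEq κ] {J : Type*}

theorem log_ratio_ge {m n : ℕ} (hn : 1 ≤ n) (h : n ≤ m) : 5 ≤ Real.log (400 * m / n) := by
  have hn' : (0 : ℝ) < n := by exact_mod_cast hn
  have hm' : (n : ℝ) ≤ m := by exact_mod_cast h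
  rw [le_log_iff_exp_le (div_pos (by linarith) hn'), le_div_iff₀ hn']
  have e : exp (5 : ℝ) ≤ 243 := by
    rw [show (5 : ℝ) = ((5 : ℕ) : ℝ) * 1 by norm_num, exp_nat_mul]
    refine (pow_le_pow_left₀ (exp_pos _).le exp_one_lt_three.le 5).trans ?_
    norm_num
  nlinarith [mul_le_mul_of_nonneg_right e hn'.le]

theorem scale_step {m n n' : ℕ} (hn' : 1 ≤ n') (hn : n' ≤ n) (hm : n ≤ m) :
    scale m n' ≤ scale m n ∧ (4 * n' ≤ 3 * n → scale m n' ≤ 0.9 * scale m n) := by
  have h0 : (0 : ℝ) < n' := by exact_mod_cast hn'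
  have h1 : (n' : ℝ) ≤ n := by exact_mod_cast hn
  have h2 : (n : ℝ) ≤ m := by exact_mod_cast hm
  have hL := log_ratio_ge (hn'.trans hn) hm
  set L := Real.log (400 * m / n) with hLdef
  have hkey : (n' : ℝ) * Real.log (400 * m / n') ≤ n' * L + ((n : ℝ) - n') := by
    have e : (400 * (m : ℝ) / n') = 400 * m / n * (n / n') := by field_simp [ne_of_gt (h0.trans_le h1)]
    have hp : (0 : ℝ) < 400 * m / n := div_pos (by linarith) (by linarith)
    rw [e, Real.log_mul hp.ne' (div_ne_zero (by linarith) h0.ne'), mul_add, hLdef]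
    have h := Real.log_le_sub_one_of_pos (show 0 < (n : ℝ) / n' from div_pos (by linarith) h0)
    have h' := mul_le_mul_of_nonneg_left h h0.le
    rw [mul_sub, mul_div_cancel₀ _ h0.ne', mul_one] at h'
    linarith
  refine ⟨sqrt_le_sqrt (by rw [← hLdef]; nlinarith), fun h34 => ?_⟩
  have h34' : 4 * (n' : ℝ) ≤ 3 * n := by exact_mod_cast h34
  rw [scale, scale, ← sqrt_sq (show (0 : ℝ) ≤ 0.9 by norm_num), ← sqrt_mul (sq_nonneg _)]
  refine sqrt_le_sqrt ?_
  rw [← hLdef]
  nlinarith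

theorem scale_nonneg (m n : ℕ) : 0 ≤ scale m n := sqrt_nonneg _

variable [Fintype J] [DecidableEq J]

/-- Spencer's theorem. -/
theorem exists_colouring (A : J → κ → ℝ) :
    ∀ S : Finset κ, #S ≤ Fintype.card J → (∀ j, ∀ k ∈ S, |A j k| ≤ 1) →
      ∃ ε : κ → ℤ, (∀ k ∈ S, ε k = 1 ∨ ε k = -1) ∧ (∀ k, k ∉ S → ε k = 0) ∧
        ∀ j, |∑ k ∈ S, A j k * ε k| ≤ 20 * scale (Fintype.card J) #S := by
  intro S
  induction S using Finset.strongInduction with
  | _ S ih =>
  intro hm hA
  rcases S.eq_empty_or_nonempty with rfl | hS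
  · exact ⟨fun _ => 0, by simp, fun _ _ => rfl, fun j => by simp [scale_nonneg]⟩
  obtain ⟨ε, hε, hεS, hcard, hdisc⟩ := exists_partial A S hS hm hA
  set Z := S.filter fun k => ε k = 0 with hZ
  have hsub : Z ⊆ S := filter_subset _ _
  have hpos : 0 < #S := hS.card_pos
  have hlt : Z ⊂ S := by
    refine Finset.ssubset_iff_subset_ne.2 ⟨hsub, fun h => ?_⟩
    rw [h] at hcard; omega
  obtain ⟨ε', hε', hεZ', hdisc'⟩ :=
    ih Z hlt ((card_le_card hsub).trans hm) fun j k hk => hA j k (hsub hk)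
  refine ⟨fun k => ε k + ε' k, fun k hk => ?_, fun k hk => ?_, fun j => ?_⟩
  · dsimp only
    by_cases hz : ε k = 0
    · rcases hε' k (mem_filter.2 ⟨hk, hz⟩) with h | h <;> simp [hz, h]
    · rw [hεZ' k (fun h => hz (mem_filter.1 h).2), add_zero]
      rcases hε k with h | h | h
      · exact Or.inr h
      · exact absurd h hz
      · exact Or.inl h
  · dsimp only
    rw [hεS k hk, hεZ' k (fun h => hk (hsub h)), add_zero]
  · have hsum : ∑ k ∈ S, A j k * ((ε k + ε' k : ℤ) : ℝ) =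
        ∑ k ∈ S, A j k * (ε k : ℝ) + ∑ k ∈ Z, A j k * (ε' k : ℝ) := by
      have : ∑ k ∈ Z, A j k * (ε' k : ℝ) = ∑ k ∈ S, A j k * (ε' k : ℝ) :=
        sum_subset hsub fun k _ hk => by simp [hεZ' k hk]
      rw [this, ← sum_add_distrib]
      exact sum_congr rfl fun k _ => by push_cast; ring
    rw [hsum]
    refine (abs_add_le _ _).trans ?_
    have h1 := hdisc j
    have h2 := hdisc' j
    have h3 : scale (Fintype.card J) #Z ≤ 0.9 * scale (Fintype.card J) #S := by
      rcases Nat.eq_zero_or_pos #Z with h | h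
      · rw [h, show scale (Fintype.card J) 0 = 0 by simp [scale]]
        exact mul_nonneg (by norm_num) (scale_nonneg _ _)
      · exact (scale_step h (card_le_card hsub) hm).2 hcard
    linarith

theorem exists_dyadic (A : J → κ → ℝ) (S : Finset κ) (hm : #S ≤ Fintype.card J)
    (hA : ∀ j, ∀ k ∈ S, |A j k| ≤ 1) :
    ∀ (T : ℕ) (p : κ → ℕ), (∀ k ∈ S, p k ≤ 2 ^ T) → ∃ w : κ → Bool, ∀ j,
      |∑ k ∈ S, A j k * ((p k : ℝ) / 2 ^ T - if w k then 1 else 0)| ≤
        20 * scale (Fintype.card J) #S * (1 - 1 / 2 ^ T) := by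
  intro T
  induction T with
  | zero =>
    intro p hp
    refine ⟨fun k => decide (p k = 1), fun j => ?_⟩
    rw [sum_eq_zero fun k hk => ?_]
    · simp
    · have := hp k hk
      rw [pow_zero] at this
      rcases Nat.le_one_iff_eq_zero_or_eq_one.1 this with h | h <;> simp [h]
  | succ T ih =>
    intro p hp
    set U := S.filter fun k => p k % 2 = 1 with hU
    have hUS : U ⊆ S := filter_subset _ _
    obtain ⟨ε, hε, hεU, hdisc⟩ :=
      exists_colouring A U ((card_le_card hUS).trans hm) fun j k hk => hA j k (hUS hk)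
    let p' : κ → ℕ := fun k => (((p k : ℤ) + ε k) / 2).toNat
    have hp' : ∀ k ∈ S, p' k ≤ 2 ^ T ∧ (2 * (p' k : ℝ) = p k + ε k) := by
      intro k hk
      have hpk := hp k hk
      rw [pow_succ] at hpk
      have key : p' k ≤ 2 ^ T ∧ (2 * (p' k : ℤ) = p k + ε k) := by
        simp only [p']
        by_cases ho : p k % 2 = 1
        · rcases hε k (mem_filter.2 ⟨hk, ho⟩) with h | h <;> rw [h] <;> constructor <;> omega
        · rw [hεU k (fun h => ho (mem_filter.1 h).2)]; constructor <;> omega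
      exact ⟨key.1, by exact_mod_cast key.2⟩
    obtain ⟨w, hw⟩ := ih p' fun k hk => (hp' k hk).1
    refine ⟨w, fun j => ?_⟩
    have hsum : ∑ k ∈ S, A j k * ((p k : ℝ) / 2 ^ (T + 1) - if w k then 1 else 0) =
        ∑ k ∈ S, A j k * ((p' k : ℝ) / 2 ^ T - if w k then 1 else 0) -
          (∑ k ∈ U, A j k * (ε k : ℝ)) / 2 ^ (T + 1) := by
      rw [sum_subset (f := fun k => A j k * (ε k : ℝ)) hUS fun k _ hk => by simp [hεU k hk],
        Finset.sum_div, ← sum_sub_distrib]
      refine sum_congr rfl fun k hk => ?_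
      have h2 := (hp' k hk).2
      rw [pow_succ, show (p k : ℝ) = 2 * p' k - ε k by linarith]
      field_simp
      ring
    rw [hsum]
    refine (abs_sub _ _).trans ?_
    have h1 := hw j
    have h2 : |(∑ k ∈ U, A j k * (ε k : ℝ)) / 2 ^ (T + 1)| ≤
        20 * scale (Fintype.card J) #S / 2 ^ (T + 1) := by
      rw [abs_div, abs_of_pos (show (0 : ℝ) < 2 ^ (T + 1) by positivity)]
      refine div_le_div_of_nonneg_right ((hdisc j).trans ?_) (by positivity)
      rcases Nat.eq_zero_or_pos #U with h | h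
      · rw [h, show scale (Fintype.card J) 0 = 0 by simp [scale], mul_zero]
        exact mul_nonneg (by norm_num) (scale_nonneg _ _)
      · linarith [(scale_step h (card_le_card hUS) hm).1]
    have h3 : 20 * scale (Fintype.card J) #S * (1 - 1 / 2 ^ T) +
        20 * scale (Fintype.card J) #S / 2 ^ (T + 1) =
        20 * scale (Fintype.card J) #S * (1 - 1 / 2 ^ (T + 1)) := by
      rw [pow_succ]; field_simp; ring
    linarith

/-- Linear discrepancy: fractional points round to signs. -/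
theorem exists_rounding (A : J → κ → ℝ) (S : Finset κ) (hS : S.Nonempty)
    (hm : #S ≤ Fintype.card J) (hA : ∀ j, ∀ k ∈ S, |A j k| ≤ 1) (a : κ → ℝ)
    (ha : ∀ k ∈ S, |a k| ≤ 1) :
    ∃ b : κ → ℝ, (∀ k ∈ S, b k = 1 ∨ b k = -1) ∧ (∀ k, k ∉ S → b k = a k) ∧
      ∀ j, |∑ k ∈ S, A j k * (b k - a k)| ≤ 42 * scale (Fintype.card J) #S := by
  have hn1 : 1 ≤ #S := hS.card_pos
  have hsc : 1 ≤ scale (Fintype.card J) #S := by
    rw [scale, one_le_sqrt]
    have := log_ratio_ge hn1 hm
    have : (1 : ℝ) ≤ #S := by exact_mod_cast hn1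
    nlinarith
  set n := #S with hn
  let p : κ → ℕ := fun k => ⌊(a k + 1) / 2 * 2 ^ n⌋₊
  obtain ⟨w, hw⟩ := exists_dyadic A S hm hA n p fun k hk => by
    simp only [p]
    refine Nat.floor_le_of_le ?_
    push_cast
    have := abs_le.1 (ha k hk)
    have : (0 : ℝ) ≤ 2 ^ n := by positivity
    nlinarith
  refine ⟨fun k => if k ∈ S then (if w k then 1 else -1) else a k, fun k hk => ?_, fun k hk => ?_,
    fun j => ?_⟩
  · dsimp only; rw [if_pos hk]; cases w k <;> simp
  · simp [hk]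
  · have h2 : ∀ k ∈ S, |(a k + 1) / 2 - (p k : ℝ) / 2 ^ n| ≤ 1 / 2 ^ n := by
      intro k hk
      have hp2 : (0 : ℝ) < 2 ^ n := by positivity
      have hk1 := abs_le.1 (ha k hk)
      have e1 := Nat.floor_le (show (0 : ℝ) ≤ (a k + 1) / 2 * 2 ^ n by nlinarith)
      have e2 := Nat.lt_floor_add_one ((a k + 1) / 2 * 2 ^ n)
      rw [show (a k + 1) / 2 - (p k : ℝ) / 2 ^ n = ((a k + 1) / 2 * 2 ^ n - p k) / 2 ^ n by
        field_simp, abs_div, abs_of_pos hp2]
      refine div_le_div_of_nonneg_right (abs_le.2 ⟨?_, ?_⟩) hp2.le <;> simp only [p] <;> linarith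
    have hsum : ∑ k ∈ S, A j k * ((if k ∈ S then (if w k then 1 else -1) else a k) - a k) =
        -2 * ∑ k ∈ S, A j k * ((a k + 1) / 2 - (p k : ℝ) / 2 ^ n) -
          2 * ∑ k ∈ S, A j k * ((p k : ℝ) / 2 ^ n - if w k then 1 else 0) := by
      rw [mul_sum, mul_sum, ← sum_sub_distrib]
      refine sum_congr rfl fun k hk => ?_
      rw [if_pos hk]
      cases w k <;> simp <;> ring
    have h4 : |∑ k ∈ S, A j k * ((a k + 1) / 2 - (p k : ℝ) / 2 ^ n)| ≤ 1 := by
      refine (abs_sum_le_sum_abs _ _).trans ((sum_le_card_nsmul _ _ (1 / 2 ^ n : ℝ) fun k hk => ?_).trans ?_)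
      · rw [abs_mul]
        exact (mul_le_of_le_one_left (abs_nonneg _) (hA j k hk)).trans (h2 k hk)
      · rw [nsmul_eq_mul, ← hn, mul_one_div, div_le_one (by positivity)]
        exact_mod_cast Nat.lt_two_pow_self.le
    have h5 := hw j
    have h6 : (0 : ℝ) ≤ 1 / 2 ^ n := by positivity
    dsimp only
    rw [hsum]
    refine (abs_sub _ _).trans ?_
    rw [abs_mul, abs_mul, abs_neg, abs_two]
    nlinarith

end Vale.Agent.P110.Spencer
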