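import Mathlib.Analysis.Complex.Liouville
import Mathlib.Analysis.Complex.AbsMax
import Mathlib.Analysis.Calculus.MeanValue
import Mathlib.Analysis.Complex.ExponentialBounds
import Mathlib.Analysis.Real.Pi.Bounds
import Mathlib.Analysis.SpecialFunctions.Complex.Circle

/-! The supremum of a polynomial on the unit circle is controlled by a grid of `O(N)` points. -/

namespace Vale.Agent.P110.Spencer

open Finset Complex Metric

/-- `∑_{k<N} c k z^k`. -/
noncomputable def poly (c : ℕ → ℂ) (N : ℕ) (z : ℂ) : ℂ := ∑ k ∈ range N, c k * z ^ k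

theorem differentiable_poly (c : ℕ → ℂ) (N : ℕ) : Differentiable ℂ (poly c N) := by
  unfold poly; fun_prop

theorem norm_poly_le {c : ℕ → ℂ} {N : ℕ} {S : ℝ} (hS : ∀ z : ℂ, ‖z‖ = 1 → ‖poly c N z‖ ≤ S)
    (z : ℂ) : ‖poly c N z‖ ≤ S * max 1 ‖z‖ ^ N := by
  have hS0 : 0 ≤ S := (norm_nonneg _).trans (hS 1 norm_one)
  have hball : ∀ d : ℕ → ℂ, (∀ z : ℂ, ‖z‖ = 1 → ‖poly d N z‖ ≤ S) → ∀ w : ℂ, ‖w‖ ≤ 1 →
      ‖poly d N w‖ ≤ S := by
    intro d hd w hw
    refine norm_le_of_forall_mem_frontier_norm_le (U := ball (0 : ℂ) 1) isBounded_ball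
      (differentiable_poly d N).diffContOnCl (fun u hu => hd u ?_) ?_
    · rw [frontier_ball (0 : ℂ) one_ne_zero] at hu; simpa using hu
    · rw [closure_ball (0 : ℂ) one_ne_zero]; simpa using hw
  rcases le_or_gt ‖z‖ 1 with hz | hz
  · rw [max_eq_left hz, one_pow, mul_one]; exact hball c hS z hz
  have hz0 : z ≠ 0 := by intro h; rw [h, norm_zero] at hz; linarith
  have hrev : ∀ w : ℂ, w ≠ 0 →
      poly (fun k => c (N - 1 - k)) N w = w ^ (N - 1) * poly c N w⁻¹ := by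
    intro w hw
    rw [poly, poly, mul_sum, ← sum_range_reflect]
    refine sum_congr rfl fun k hk => ?_
    have hk' := mem_range.1 hk
    rw [show N - 1 - (N - 1 - k) = k by omega, inv_pow, pow_sub₀ w hw (by omega)]
    ring
  have hd : ∀ w : ℂ, ‖w‖ = 1 → ‖poly (fun k => c (N - 1 - k)) N w‖ ≤ S := by
    intro w hw
    rw [hrev w (by intro h; rw [h, norm_zero] at hw; linarith), norm_mul, norm_pow, hw, one_pow, one_mul]
    exact hS _ (by rw [norm_inv, hw, inv_one])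
  have h := hball _ hd z⁻¹ (by rw [norm_inv]; exact inv_le_one_of_one_le₀ hz.le)
  rw [hrev _ (inv_ne_zero hz0), inv_inv, norm_mul, norm_pow, norm_inv, inv_pow,
    ← div_eq_inv_mul, div_le_iff₀ (by positivity)] at h
  refine h.trans (mul_le_mul_of_nonneg_left ?_ hS0)
  rw [max_eq_right hz.le]
  exact pow_le_pow_right₀ hz.le (Nat.sub_le N 1)

theorem norm_deriv_poly_le {c : ℕ → ℂ} {N : ℕ} (hN : 0 < N) {S : ℝ}
    (hS : ∀ z : ℂ, ‖z‖ = 1 → ‖poly c N z‖ ≤ S) {z : ℂ} (hz : ‖z‖ = 1) :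
    ‖deriv (poly c N) z‖ ≤ 3 * S * N := by
  have hS0 : 0 ≤ S := (norm_nonneg _).trans (hS 1 norm_one)
  have hN' : (0 : ℝ) < N := by exact_mod_cast hN
  refine (norm_deriv_le_of_forall_mem_sphere_norm_le (R := (N : ℝ)⁻¹) (C := 3 * S) (inv_pos.2 hN')
    (differentiable_poly c N).diffContOnCl fun w hw => ?_).trans (le_of_eq (by rw [div_inv_eq_mul]))
  refine (norm_poly_le hS w).trans ?_
  rw [mul_comm 3 S]
  refine mul_le_mul_of_nonneg_left ?_ hS0
  have hw' : ‖w‖ ≤ 1 + (N : ℝ)⁻¹ := by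
    rw [mem_sphere, dist_eq_norm] at hw
    have := norm_sub_norm_le w z
    linarith
  calc max 1 ‖w‖ ^ N ≤ (1 + (N : ℝ)⁻¹) ^ N :=
        pow_le_pow_left₀ (by positivity) (max_le (by simp) hw') N
    _ ≤ Real.exp ((N : ℝ)⁻¹) ^ N :=
        pow_le_pow_left₀ (by positivity) (by linarith [Real.add_one_le_exp ((N : ℝ)⁻¹)]) N
    _ ≤ 3 := by
        rw [← Real.exp_nat_mul, mul_inv_cancel₀ hN'.ne']
        exact Real.exp_one_lt_three.le

/-- If a polynomial of length `N` is at most `M` at the `40N`-th roots of unity, it is at most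
`2M` on the unit circle. -/
theorem norm_poly_le_of_grid {c : ℕ → ℂ} {N : ℕ} (hN : 0 < N) {M : ℝ}
    (h : ∀ i : Fin (40 * N), ‖poly c N (exp (((2 * Real.pi * (i : ℕ) / (40 * N : ℕ) : ℝ) : ℂ) * I))‖ ≤ M) :
    ∀ t : ℝ, ‖poly c N (exp (t * I))‖ ≤ 2 * M := by
  obtain ⟨z₀, hz₀, hmax⟩ := (isCompact_sphere (0 : ℂ) 1).exists_isMaxOn
    ⟨1, by simp⟩ (differentiable_poly c N).continuous.norm.continuousOn
  set S := ‖poly c N z₀‖ with hSdef
  have hS : ∀ z : ℂ, ‖z‖ = 1 → ‖poly c N z‖ ≤ S := fun z hz => hmax (by simpa using hz)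
  have hz₀' : ‖z₀‖ = 1 := by simpa using hz₀
  have hlip : ∀ s t : ℝ, ‖poly c N (exp (t * I)) - poly c N (exp (s * I))‖ ≤ 3 * S * N * |t - s| := by
    intro s t
    have hder : ∀ x : ℝ, HasDerivAt (fun x : ℝ => poly c N (exp (x * I)))
        (deriv (poly c N) (exp (x * I)) * (exp (x * I) * I)) x := by
      intro x
      have h1 : HasDerivAt (fun x : ℝ => exp ((x : ℂ) * I)) (exp (x * I) * I) x := by
        simpa using ((hasDerivAt_id (x : ℂ)).mul_const I).cexp.comp_ofReal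
      exact HasDerivAt.comp x (differentiable_poly c N _).hasDerivAt h1
    have := Convex.norm_image_sub_le_of_norm_hasDerivWithin_le (s := Set.univ)
      (f := fun x : ℝ => poly c N (exp (x * I))) (C := 3 * S * N)
      (fun x _ => (hder x).hasDerivWithinAt) (fun x _ => ?_) convex_univ (Set.mem_univ s) (Set.mem_univ t)
    · rwa [Real.norm_eq_abs] at this
    · rw [norm_mul, norm_mul, norm_exp_ofReal_mul_I, norm_I, one_mul, mul_one]
      exact norm_deriv_poly_le hN hS (norm_exp_ofReal_mul_I x)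
  suffices hSM : S ≤ 2 * M from fun t => (hS _ (norm_exp_ofReal_mul_I t)).trans hSM
  obtain ⟨t, rfl⟩ : ∃ t : ℝ, exp (t * I) = z₀ :=
    ⟨arg z₀, by simpa [hz₀'] using norm_mul_exp_arg_mul_I z₀⟩
  set G : ℕ := 40 * N with hG
  have hG0 : (0 : ℝ) < G := by positivity
  set u : ℤ := ⌊t * G / (2 * Real.pi)⌋ with hu
  have hu1 := Int.floor_le (t * G / (2 * Real.pi))
  have hu2 := Int.lt_floor_add_one (t * G / (2 * Real.pi))
  rw [← hu] at hu1 hu2
  have hgz : (G : ℤ) ≠ 0 := by positivity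
  have hi0 : 0 ≤ u % G := Int.emod_nonneg _ hgz
  have hi1 : u % G < G := Int.emod_lt_of_pos _ (by positivity)
  let i : Fin G := ⟨(u % G).toNat, by omega⟩
  have hp : exp (((2 * Real.pi * u / G : ℝ) : ℂ) * I) =
      exp (((2 * Real.pi * (i : ℕ) / G : ℝ) : ℂ) * I) := by
    have hcast : ((i : ℕ) : ℝ) = ((u % G : ℤ) : ℝ) := by
      simp only [i]
      exact_mod_cast Int.toNat_of_nonneg hi0
    have hsplit : (u : ℝ) = ((u % G : ℤ) : ℝ) + G * ((u / G : ℤ) : ℝ) := by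
      exact_mod_cast (Int.emod_add_mul_ediv u G).symm
    rw [hcast, hsplit, show 2 * Real.pi * (((u % G : ℤ) : ℝ) + G * ((u / G : ℤ) : ℝ)) / G =
      2 * Real.pi * ((u % G : ℤ) : ℝ) / G + 2 * Real.pi * ((u / G : ℤ) : ℝ) by field_simp,
      ofReal_add, add_mul, exp_add,
      show ((2 * Real.pi * ((u / G : ℤ) : ℝ) : ℝ) : ℂ) * I = ((u / G : ℤ) : ℂ) * (2 * Real.pi * I) by
        push_cast; ring, exp_int_mul_two_pi_mul_I, mul_one]
  have hd : |t - 2 * Real.pi * u / G| ≤ 2 * Real.pi / G := by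
    rw [le_div_iff₀ (by positivity)] at hu1
    rw [div_lt_iff₀ (by positivity)] at hu2
    rw [show t - 2 * Real.pi * u / G = (t * G - 2 * Real.pi * u) / G by field_simp, abs_div,
      abs_of_pos hG0, div_le_div_iff_of_pos_right hG0, abs_le]
    constructor <;> nlinarith [Real.pi_pos]
  have h1 := hlip (2 * Real.pi * u / G) t
  rw [hp] at h1
  have h2 := h i
  have hS0 : 0 ≤ S := norm_nonneg _
  have h3 : 3 * S * N * |t - 2 * Real.pi * u / G| ≤ S / 2 := by
    refine (mul_le_mul_of_nonneg_left hd (by positivity)).trans ?_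
    have hN' : (0 : ℝ) < N := by exact_mod_cast hN
    rw [show 3 * S * N * (2 * Real.pi / (G : ℝ)) = S * (6 * Real.pi / 40) by
      rw [hG]; push_cast; field_simp; ring]
    nlinarith [Real.pi_lt_d2, Real.pi_pos]
  have h4 := norm_sub_norm_le (poly c N (exp (t * I)))
    (poly c N (exp (((2 * Real.pi * (i : ℕ) / G : ℝ) : ℂ) * I)))
  rw [← hSdef] at h4
  linarith

end Vale.Agent.P110.Spencer
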