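import Vale.Agent.P110.Defs
import Vale.Agent.P110.Exist.Spencer.Full
import Vale.Agent.P110.Exist.Spencer.Grid

/-! Rounding the non-extreme coefficients of a real polynomial with small sup-norm error. -/

namespace Vale.Agent.P110.Spencer

open Finset

theorem evalP_eq_poly (x : ℕ → ℝ) (N : ℕ) (θ : ℝ) :
    evalP x N θ = poly (fun k => (x k : ℂ)) N (Complex.exp (θ * Complex.I)) := by
  simp only [evalP, poly, ← Complex.exp_nat_mul]
  refine sum_congr rfl fun k _ => ?_
  congr 2; ring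

/-- Spencer rounding: coefficients in `[-1,1]` can be rounded to signs on a set `S` with
sup-norm error `O(√(|S| log(N/|S|)))`. -/
theorem exists_sign_rounding_on (N : ℕ) (a : ℕ → ℝ) (S : Finset ℕ) (hS : S.Nonempty)
    (hSN : S ⊆ range N) (ha : ∀ k ∈ S, |a k| ≤ 1) :
    ∃ b : ℕ → ℝ, (∀ k ∈ S, b k = 1 ∨ b k = -1) ∧ (∀ k, k ∉ S → b k = a k) ∧ ∀ θ : ℝ,
      ‖evalP (fun k => b k - a k) N θ‖ ≤ 168 * Real.sqrt ((#S : ℝ) * Real.log (32000 * N / #S)) := by
  have hN : 0 < N := by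
    obtain ⟨k, hk⟩ := hS
    exact lt_of_le_of_lt (Nat.zero_le k) (mem_range.1 (hSN hk))
  have hcard : #S ≤ N := (card_le_card hSN).trans (card_range N).le
  let g : Fin (40 * N) → ℝ := fun i => 2 * Real.pi * (i : ℕ) / (40 * N : ℕ)
  let A : Fin (40 * N) × Bool → ℕ → ℝ := fun j k =>
    if j.2 then Real.cos ((k : ℝ) * g j.1) else Real.sin ((k : ℝ) * g j.1)
  have hJ : Fintype.card (Fin (40 * N) × Bool) = 80 * N := by
    rw [Fintype.card_prod, Fintype.card_fin, Fintype.card_bool]; ring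
  obtain ⟨b, hb, hba, hdisc⟩ := exists_rounding A S hS (by rw [hJ]; omega) (fun j k _ => by
    simp only [A]
    split <;> [exact Real.abs_cos_le_one _; exact Real.abs_sin_le_one _]) a ha
  refine ⟨b, hb, hba, fun θ => ?_⟩
  rw [evalP_eq_poly]
  refine (norm_poly_le_of_grid hN (M := 84 * Real.sqrt ((#S : ℝ) * Real.log (32000 * N / #S)))
    (fun i => ?_) θ).trans (le_of_eq (by ring))
  have hsc : scale (80 * N) #S = Real.sqrt ((#S : ℝ) * Real.log (32000 * N / #S)) := by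
    rw [scale]; push_cast; ring_nf
  have hre := hdisc (i, true)
  have him := hdisc (i, false)
  rw [hJ, hsc] at hre him
  simp only [A, if_true, Bool.false_eq_true, if_false] at hre him
  have hp : poly (fun k => ((b k - a k : ℝ) : ℂ)) N (Complex.exp ((g i : ℂ) * Complex.I)) =
      ((∑ k ∈ S, Real.cos ((k : ℝ) * g i) * (b k - a k) : ℝ) : ℂ) +
        ((∑ k ∈ S, Real.sin ((k : ℝ) * g i) * (b k - a k) : ℝ) : ℂ) * Complex.I := by
    rw [poly, ← sum_subset hSN fun k _ hk => by simp [hba k hk]]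
    push_cast
    rw [sum_mul, ← sum_add_distrib]
    refine sum_congr rfl fun k _ => ?_
    rw [← Complex.exp_nat_mul, ← mul_assoc, Complex.exp_mul_I]
    ring
  rw [show (2 * Real.pi * (i : ℕ) / (40 * N : ℕ) : ℝ) = g i from rfl, hp]
  refine (norm_add_le _ _).trans ?_
  rw [norm_mul, Complex.norm_real, Complex.norm_real, Complex.norm_I, mul_one,
    Real.norm_eq_abs, Real.norm_eq_abs]
  linarith

/-- Spencer rounding of all non-extreme coefficients. -/
theorem exists_sign_rounding : ∃ K : ℝ, ∀ (N : ℕ) (a : ℕ → ℝ), (∀ k < N, |a k| ≤ 1) →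
    ∀ F : Finset ℕ, F.Nonempty → F ⊆ range N → (∀ k < N, k ∉ F → |a k| = 1) →
    ∃ b : ℕ → ℝ, (∀ k < N, b k = 1 ∨ b k = -1) ∧ (∀ k, k ∉ F → b k = a k) ∧ ∀ θ : ℝ,
      ‖evalP (fun k => b k - a k) N θ‖ ≤ K * Real.sqrt ((#F : ℝ) * Real.log (K * N / #F)) := by
  refine ⟨32000, fun N a ha F hF hFN hoff => ?_⟩
  obtain ⟨b, hb, hba, hbd⟩ :=
    exists_sign_rounding_on N a F hF hFN fun k hk => ha k (mem_range.1 (hFN hk))
  refine ⟨b, fun k hk => ?_, hba, fun θ => (hbd θ).trans ?_⟩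
  · by_cases h : k ∈ F
    · exact hb k h
    · rw [hba k h]
      exact eq_or_eq_neg_of_abs_eq (hoff k hk h)
  · exact mul_le_mul_of_nonneg_right (by norm_num) (Real.sqrt_nonneg _)

end Vale.Agent.P110.Spencer
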